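import Vale.Agent.P038.H30.Core

/-!
# No reflexive antisymmetric relation has strictly shrinking boundaries
-/

set_option linter.unusedSectionVars false

namespace Vale.Agent.P038.H30

open Finset

variable {α : Type*} [Fintype α] [LinearOrder α]

/-- Feasible pairs. -/
structure Feas (R : α → α → Prop) (U W : α → Finset α) : Prop where
  hU : ∀ a x, R a x → x ∈ U a
  hW : ∀ a x, R a x → x ∈ W a
  orth : ∀ a x, x ∈ U a → a ∈ W x → a = x

/-- The total boundary. -/
noncomputable def cost (R : α → α → Prop) (p : (α → Finset α) × (α → Finset α)) : ℤ :=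
  ∑ a, c R (p.1 a) + ∑ a, c R (p.2 a)

theorem exists_opt (R : α → α → Prop) (hrefl : ∀ a, R a a)
    (hanti : ∀ a x, R a x → R x a → a = x) :
    ∃ U W : α → Finset α, Opt R U W ∧
      ∀ U' W' : α → Finset α, Feas R U' W' → cost R (U, W) ≤ cost R (U', W') := by
  classical
  set N : α → Finset α := fun a => univ.filter (fun x => R a x) with hN
  have hNf : Feas R N N := by
    refine ⟨?_, ?_, ?_⟩
    · intro a x h
      simp [hN, h]
    · intro a x h
      simp [hN, h]
    · intro a x h1 h2
      simp only [hN, mem_filter, mem_univ, true_and] at h1 h2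
      exact hanti a x h1 h2
  obtain ⟨p, hp, hmin⟩ := Finset.exists_min_image
    (univ.filter (fun p : (α → Finset α) × (α → Finset α) => Feas R p.1 p.2)) (cost R)
    ⟨(N, N), by simp [hNf]⟩
  obtain ⟨U, W⟩ := p
  rw [mem_filter] at hp
  have hf : Feas R U W := hp.2
  have hmin' : ∀ U' W' : α → Finset α, Feas R U' W' → cost R (U, W) ≤ cost R (U', W') := by
    intro U' W' h
    exact hmin (U', W') (by simp [h])
  refine ⟨U, W, ?_, hmin'⟩
  refine ⟨hrefl, hf.hU, hf.hW, hf.orth, ?_, ?_⟩
  · intro a K hK
    have hfe : Feas R (Function.update U a (U a ∪ K)) W := by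
      refine ⟨?_, hf.hW, ?_⟩
      · intro b x hbx
        by_cases hb : b = a
        · subst hb
          rw [Function.update_self, mem_union]
          exact Or.inl (hf.hU b x hbx)
        · rw [Function.update_of_ne hb]
          exact hf.hU b x hbx
      · intro b x h1 h2
        by_cases hb : b = a
        · subst hb
          rw [Function.update_self, mem_union] at h1
          rcases h1 with h1 | h1
          · exact hf.orth b x h1 h2
          · exact absurd h2 (hK x h1)
        · rw [Function.update_of_ne hb] at h1
          exact hf.orth b x h1 h2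
    have := hmin' _ _ hfe
    unfold cost at this
    simp only at this
    have e1 : ∑ b, c R (Function.update U a (U a ∪ K) b) =
        ∑ b ∈ univ.erase a, c R (U b) + c R (U a ∪ K) := by
      rw [← sum_erase_add _ _ (mem_univ a)]
      congr 1
      · apply sum_congr rfl
        intro b hb
        rw [Function.update_of_ne (ne_of_mem_erase hb)]
      · rw [Function.update_self]
    have e2 : ∑ b, c R (U b) = ∑ b ∈ univ.erase a, c R (U b) + c R (U a) :=
      (sum_erase_add _ _ (mem_univ a)).symm
    linarith
  · intro a K hK
    have hfe : Feas R U (Function.update W a (W a ∪ K)) := by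
      refine ⟨hf.hU, ?_, ?_⟩
      · intro b x hbx
        by_cases hb : b = a
        · subst hb
          rw [Function.update_self, mem_union]
          exact Or.inl (hf.hW b x hbx)
        · rw [Function.update_of_ne hb]
          exact hf.hW b x hbx
      · intro b x h1 h2
        by_cases hb : x = a
        · subst hb
          rw [Function.update_self, mem_union] at h2
          rcases h2 with h2 | h2
          · exact hf.orth b x h1 h2
          · exact absurd h1 (hK b h2)
        · rw [Function.update_of_ne hb] at h2
          exact hf.orth b x h1 h2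
    have := hmin' _ _ hfe
    unfold cost at this
    simp only at this
    have e1 : ∑ b, c R (Function.update W a (W a ∪ K) b) =
        ∑ b ∈ univ.erase a, c R (W b) + c R (W a ∪ K) := by
      rw [← sum_erase_add _ _ (mem_univ a)]
      congr 1
      · apply sum_congr rfl
        intro b hb
        rw [Function.update_of_ne (ne_of_mem_erase hb)]
      · rw [Function.update_self]
    have e2 : ∑ b, c R (W b) = ∑ b ∈ univ.erase a, c R (W b) + c R (W a) :=
      (sum_erase_add _ _ (mem_univ a)).symm
    linarith

/-- The contradiction. -/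
theorem contra [Nonempty α] (R : α → α → Prop) (hrefl : ∀ a, R a a)
    (hanti : ∀ a x, R a x → R x a → a = x) (hout : ∀ a, ∃ x, x ≠ a ∧ R a x)
    (hG : ∀ S : Finset α, cl R S ≠ S → c R (cl R S) < c R S) : False := by
  classical
  obtain ⟨U, W, ho, hmin⟩ := exists_opt R hrefl hanti
  have hle : ∀ S : Finset α, c R (cl R S) ≤ c R S := by
    intro S
    by_cases h : cl R S = S
    · rw [h]
    · exact (hG S h).le
  have hfeas : Feas R (fun a => cl R (sh R U a)) (fun a => cl R (sh R W a)) := by
    refine ⟨?_, ?_, ho.orth3⟩
    · intro a x h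
      rw [mem_cl]
      exact ⟨a, ho.self_mem a, h⟩
    · intro a x h
      rw [mem_cl]
      exact ⟨a, ho.swap.self_mem a, h⟩
  have h1 := hmin _ _ hfeas
  have h2 := main_ineq ho
  -- strictness
  obtain ⟨a, ha⟩ : ∃ a, cl R (sh R U a) ≠ sh R U a := by
    by_contra hcon
    push Not at hcon
    choose f hf using hout
    obtain ⟨b, m, hm, hb⟩ : ∃ b m, 0 < m ∧ f^[m] b = b := by
      obtain ⟨x0⟩ := ‹Nonempty α›
      obtain ⟨i, j, hij, he⟩ := Finite.exists_ne_map_eq_of_infinite (fun k : ℕ => f^[k] x0)
      rcases lt_or_gt_of_ne hij with h | h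
      · refine ⟨f^[i] x0, j - i, by omega, ?_⟩
        rw [← Function.iterate_add_apply, Nat.sub_add_cancel h.le]
        exact he.symm
      · refine ⟨f^[j] x0, i - j, by omega, ?_⟩
        rw [← Function.iterate_add_apply, Nat.sub_add_cancel h.le]
        exact he
    have hk : ∀ k, f^[k] b ∈ sh R U b := by
      intro k
      induction k with
      | zero => exact ho.self_mem b
      | succ k ih =>
        rw [Function.iterate_succ_apply', ← hcon b, mem_cl]
        exact ⟨_, ih, (hf _).2⟩
    have h3 := hk (m - 1)
    have h4 : f (f^[m - 1] b) = b := by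
      rw [← Function.iterate_succ_apply' f (m - 1) b]
      have : (m - 1).succ = m := by omega
      rw [this]
      exact hb
    have h5 : R (f^[m - 1] b) b := by
      have := (hf (f^[m - 1] b)).2
      rwa [h4] at this
    have h6 := ho.far h3 h5
    have h7 := (hf (f^[m - 1] b)).1
    rw [h4] at h7
    exact h7 h6
  have h3 : ∑ a, c R (cl R (sh R U a)) < ∑ a, c R (sh R U a) :=
    sum_lt_sum (fun a _ => hle _) ⟨a, mem_univ a, hG _ ha⟩
  have h4 : ∑ a, c R (cl R (sh R W a)) ≤ ∑ a, c R (sh R W a) :=
    sum_le_sum (fun a _ => hle _)
  unfold cost at h1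
  simp only at h1
  linarith

end Vale.Agent.P038.H30
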