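import Vale.Agent.P038.H30.Rank

/-!
# The main inequality: shifting down an optimal pair of families
-/

set_option linter.unusedSectionVars false

namespace Vale.Agent.P038.H30

open Finset

variable {α : Type*} [Fintype α] [LinearOrder α]

/-- Pairs excluded by both families. -/
def gap (F H : α → Finset α) (x : α) : Finset α :=
  univ.filter fun a => a ∉ H x ∧ x ∉ F a

theorem mem_gap {F H : α → Finset α} {x a : α} : a ∈ gap F H x ↔ a ∉ H x ∧ x ∉ F a := by
  simp [gap]

theorem dcount (B : α → Finset α) (K : α → Finset α) (h : ∀ q x, x ∈ K q ↔ q ∈ B x) :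
    ∑ x, (B x).card = ∑ q, (K q).card := by
  have h1 : ∀ x, (B x).card = ∑ q, if q ∈ B x then 1 else 0 := by
    intro x
    simp
  have h2 : ∀ q, (K q).card = ∑ x, if q ∈ B x then 1 else 0 := by
    intro q
    have : K q = univ.filter (fun x => q ∈ B x) := by
      ext x
      simp [h]
    rw [this, card_filter]
  simp_rw [h1, h2]
  exact sum_comm

theorem gap_count (F H : α → Finset α) (h : ∀ a x, x ∈ F a → a ∈ H x → a = x)
    (hF : ∀ a, a ∈ F a) (hH : ∀ a, a ∈ H a) :
    ∑ x, (gap F H x).card + ∑ a, (F a).card + ∑ x, (H x).card =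
      Fintype.card α * Fintype.card α + Fintype.card α := by
  have h1 : ∀ x, (gap F H x).card + (univ.filter (fun a => x ∈ F a)).card + (H x).card =
      Fintype.card α + 1 := by
    intro x
    have e1 : (H x ∪ univ.filter (fun a => x ∈ F a)).card +
        (H x ∩ univ.filter (fun a => x ∈ F a)).card =
        (H x).card + (univ.filter (fun a => x ∈ F a)).card := card_union_add_card_inter _ _
    have e2 : H x ∩ univ.filter (fun a => x ∈ F a) = {x} := by
      ext a
      rw [mem_inter, mem_filter, mem_singleton]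
      constructor
      · rintro ⟨h1, _, h2⟩
        exact h a x h2 h1
      · rintro rfl
        exact ⟨hH a, mem_univ _, hF a⟩
    have e3 : (gap F H x).card + (H x ∪ univ.filter (fun a => x ∈ F a)).card =
        Fintype.card α := by
      rw [← card_union_of_disjoint]
      · rw [← card_univ]
        congr 1
        ext a
        simp only [mem_union, mem_gap, mem_filter, mem_univ, true_and, iff_true]
        by_cases h1 : a ∈ H x
        · exact Or.inr (Or.inl h1)
        · by_cases h2 : x ∈ F a
          · exact Or.inr (Or.inr h2)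
          · exact Or.inl ⟨h1, h2⟩
      · rw [disjoint_left]
        intro a ha hb
        rw [mem_gap] at ha
        rw [mem_union, mem_filter] at hb
        rcases hb with hb | hb
        · exact ha.1 hb
        · exact ha.2 hb.2
    rw [e2, card_singleton] at e1
    omega
  have h2 : ∑ a, (F a).card = ∑ x, (univ.filter (fun a => x ∈ F a)).card := by
    apply dcount
    intro q x
    simp
  rw [h2, ← sum_add_distrib, ← sum_add_distrib]
  rw [sum_congr rfl (fun x _ => h1 x), sum_const, card_univ, smul_eq_mul]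
  ring

/-- The data of an optimal pair of families. -/
structure Opt (R : α → α → Prop) (U W : α → Finset α) : Prop where
  refl : ∀ a, R a a
  hU : ∀ a x, R a x → x ∈ U a
  hW : ∀ a x, R a x → x ∈ W a
  orth : ∀ a x, x ∈ U a → a ∈ W x → a = x
  optU : ∀ a (K : Finset α), (∀ x ∈ K, a ∉ W x) → c R (U a) ≤ c R (U a ∪ K)
  optW : ∀ x (K : Finset α), (∀ a ∈ K, x ∉ U a) → c R (W x) ≤ c R (W x ∪ K)

open Classical in
/-- The shift down: intersection over the closed in-neighbourhood. -/
noncomputable def sh (R : α → α → Prop) (U : α → Finset α) (q : α) : Finset α :=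
  univ.filter fun x => ∀ a, R a q → x ∈ U a

theorem mem_sh {R : α → α → Prop} {U : α → Finset α} {q x : α} :
    x ∈ sh R U q ↔ ∀ a, R a q → x ∈ U a := by
  classical
  simp [sh]

namespace Opt

variable {R : α → α → Prop} {U W : α → Finset α}

theorem swap (h : Opt R U W) : Opt R W U where
  refl := h.refl
  hU := h.hW
  hW := h.hU
  orth := fun a x h1 h2 => (h.orth x a h2 h1).symm
  optU := h.optW
  optW := h.optU

theorem self_mem (h : Opt R U W) (a : α) : a ∈ sh R U a := by
  rw [mem_sh]
  intro b hb
  exact h.hU b a hb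

/-- `X_q` meets the closed in-neighbourhood of `q` only in `q`. -/
theorem far (h : Opt R U W) {a x : α} (hx : x ∈ sh R U a) (hr : R x a) : a = x := by
  rw [mem_sh] at hx
  exact h.orth a x (hx a (h.refl a)) (h.hW x a hr)

theorem orth1 (h : Opt R U W) (a x : α) (h1 : x ∈ sh R U a) (h2 : a ∈ cl R (W x)) : a = x := by
  rw [mem_cl] at h2
  obtain ⟨b, hb, hr⟩ := h2
  have h3 : x ∈ U b := (mem_sh.1 h1) b hr
  have h4 : b = x := h.orth b x h3 hb
  rw [h4] at hr
  exact h.far h1 hr

theorem orth2 (h : Opt R U W) (a x : α) (h1 : x ∈ cl R (U a)) (h2 : a ∈ sh R W x) : a = x :=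
  (h.swap.orth1 x a h2 h1).symm

theorem orth3 (h : Opt R U W) (a v : α) (h1 : v ∈ cl R (sh R U a)) (h2 : a ∈ cl R (sh R W v)) :
    a = v := by
  rw [mem_cl] at h1 h2
  obtain ⟨x, hx, hxv⟩ := h1
  obtain ⟨y, hy, hya⟩ := h2
  have e1 : x ∈ U y := (mem_sh.1 hx) y hya
  have e2 : y ∈ W x := (mem_sh.1 hy) x hxv
  have e3 : y = x := h.orth y x e1 e2
  rw [e3] at hy hya
  have e4 : a = x := h.far hx hya
  have e5 : v = x := h.swap.far hy hxv
  rw [e4, e5]

theorem subU (h : Opt R U W) {a q : α} (hr : R a q) : sh R U q ⊆ U a := by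
  intro x hx
  exact (mem_sh.1 hx) a hr

/-- Step 3. -/
theorem step3 (h : Opt R U W) {q : α} {K : Finset α} (hK : ∀ x ∈ K, q ∉ cl R (W x))
    (hd : ∀ x ∈ K, x ∉ sh R U q) : K.card ≤ (cl R K \ cl R (sh R U q)).card := by
  classical
  apply card_le_of_c _ hd
  apply uncross R (univ.filter fun a => R a q) U
  · intro x
    rw [mem_sh]
    simp
  · intro a ha K' hK'
    rw [mem_filter] at ha
    apply h.optU
    intro x hx hw
    apply hK x (hK' hx)
    rw [mem_cl]
    exact ⟨a, hw, ha.2⟩

end Opt

/-- The main inequality. -/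
theorem main_ineq {R : α → α → Prop} {U W : α → Finset α} (h : Opt R U W) :
    ∑ a, c R (sh R U a) + ∑ a, c R (sh R W a) ≤ ∑ a, c R (U a) + ∑ a, c R (W a) := by
  classical
  set X := sh R U with hX
  set Y := sh R W with hY
  set G := gap U W with hG
  set Q := gap X (fun x => cl R (W x)) with hQ
  set P := gap (fun a => cl R (U a)) Y with hP
  set Z := gap (fun a => cl R (X a)) (fun x => cl R (Y x)) with hZ
  set Z' : α → Finset α := fun p => (Z p).filter (fun q => ∃ a ∈ P p, R a q) with hZ'
  have mG : ∀ x a, a ∈ G x ↔ a ∉ W x ∧ x ∉ U a := fun x a => mem_gap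
  have mQ : ∀ x q, q ∈ Q x ↔ q ∉ cl R (W x) ∧ x ∉ X q := fun x q => mem_gap
  have mP : ∀ p a, a ∈ P p ↔ a ∉ Y p ∧ p ∉ cl R (U a) := fun p a => mem_gap
  have mZ : ∀ p q, q ∈ Z p ↔ q ∉ cl R (Y p) ∧ p ∉ cl R (X q) := fun p q => mem_gap
  have mZ' : ∀ p q, q ∈ Z' p ↔ q ∈ Z p ∧ ∃ a ∈ P p, R a q := by
    intro p q
    simp [hZ']
  -- facts
  have subcl : ∀ {x : α} (S : Finset α), x ∈ S → x ∈ cl R S := by
    intro x S hx
    rw [mem_cl]
    exact ⟨x, hx, h.refl x⟩
  have fact1 : ∀ x p, R x p → ∀ s ∈ Q x, ∀ l ∈ P p, R l s → l ∈ G x := by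
    intro x p hxp s hs l hl hls
    rw [mQ] at hs
    rw [mP] at hl
    rw [mG]
    constructor
    · intro hw
      apply hs.1
      rw [mem_cl]
      exact ⟨l, hw, hls⟩
    · intro hu
      apply hl.2
      rw [mem_cl]
      exact ⟨x, hu, hxp⟩
  have fact2 : ∀ x p, R x p → ∀ s ∈ Q x, ∀ l ∈ P p, R l s → s ∈ Z' p := by
    intro x p hxp s hs l hl hls
    rw [mQ] at hs
    have hl' := hl
    rw [mP] at hl'
    rw [mZ', mZ]
    refine ⟨⟨?_, ?_⟩, l, hl, hls⟩
    · intro hc
      apply hs.1
      exact cl_mono (h.swap.subU hxp) hc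
    · intro hc
      apply hl'.2
      exact cl_mono (h.subU hls) hc
  -- marginals
  set r : α → α → ℤ := fun x q =>
    (g R (G x) (insert q ((Q x).filter (· < q))) : ℤ) - g R (G x) ((Q x).filter (· < q)) with hr
  set r' : α → α → ℤ := fun p q =>
    (g R (P p) (insert q ((Z' p).filter (· < q))) : ℤ) - g R (P p) ((Z' p).filter (· < q)) with hr'
  have r01 : ∀ x q, 0 ≤ r x q ∧ r x q ≤ 1 := by
    intro x q
    have h1 := g_mono_insert (R := R) (L := G x) (T := (Q x).filter (· < q)) (q := q)
    have h2 := g_insert_le (R := R) (L := G x) (T := (Q x).filter (· < q)) (q := q) (by simp)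
    simp only [hr]
    constructor <;> omega
  have r01' : ∀ p q, 0 ≤ r' p q ∧ r' p q ≤ 1 := by
    intro p q
    have h1 := g_mono_insert (R := R) (L := P p) (T := (Z' p).filter (· < q)) (q := q)
    have h2 := g_insert_le (R := R) (L := P p) (T := (Z' p).filter (· < q)) (q := q) (by simp)
    simp only [hr']
    constructor <;> omega
  have cmp : ∀ x p q, R x p → q ∈ Q x → q ∈ Z' p → r' p q ≤ r x q := by
    intro x p q hxp hq hq'
    have := compare (R := R) (L := G x) (L' := P p) (Q := Q x) (Q' := Z' p) (q := q)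
      (fact1 x p hxp) (fact2 x p hxp) hq hq'
    simp only [hr, hr']
    omega
  have sumr : ∀ x, ∑ q ∈ Q x, r x q = g R (G x) (Q x) := by
    intro x
    have := telescope (fun T => (g R (G x) T : ℤ)) (Q x)
    simp only [g_empty] at this
    simp only [hr]
    rw [this]
    simp
  have sumr' : ∀ p, ∑ q ∈ Z' p, r' p q = g R (P p) (Z' p) := by
    intro p
    have := telescope (fun T => (g R (P p) T : ℤ)) (Z' p)
    simp only [g_empty] at this
    simp only [hr']
    rw [this]
    simp
  set B : α → Finset α := fun x => (Q x).filter (fun q => r x q = 0) with hB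
  set B' : α → Finset α := fun p => (Z' p).filter (fun q => r' p q = 0) with hB'
  have cardB : ∀ x, ((Q x).card : ℤ) - (G x).card ≤ (B x).card := by
    intro x
    have h1 : ((B x).card : ℤ) = ∑ q ∈ Q x, (1 - r x q) := by
      rw [hB, card_filter]
      push_cast
      apply sum_congr rfl
      intro q _
      have := r01 x q
      split_ifs with h0
      · rw [h0]
        simp
      · omega
    rw [sum_sub_distrib, sumr] at h1
    have h2 : (g R (G x) (Q x) : ℤ) ≤ (G x).card := by exact_mod_cast g_le_left R (G x) (Q x)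
    simp only [sum_const, nsmul_eq_mul, mul_one] at h1
    linarith
  have hallP : ∀ p, (P p).card ≤ g R (P p) (Z' p) := by
    intro p
    apply hall
    intro K hK
    have h1 : K.card ≤ (cl R K \ cl R (Y p)).card := by
      apply h.swap.step3
      · intro a ha
        exact ((mP p a).1 (hK ha)).2
      · intro a ha
        exact ((mP p a).1 (hK ha)).1
    refine h1.trans (card_le_card ?_)
    intro q hq
    rw [mem_sdiff] at hq
    have hq1 := hq.1
    rw [mem_cl] at hq1
    obtain ⟨a, ha, har⟩ := hq1
    rw [mem_inter, mZ', mZ]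
    refine ⟨⟨⟨hq.2, ?_⟩, a, hK ha, har⟩, hq.1⟩
    intro hc
    have := ((mP p a).1 (hK ha)).2
    apply this
    exact cl_mono (h.subU har) hc
  have cardB' : ∀ p, ((B' p).card : ℤ) ≤ ((Z' p).card : ℤ) - (P p).card := by
    intro p
    have h1 : ((B' p).card : ℤ) = ∑ q ∈ Z' p, (1 - r' p q) := by
      rw [hB', card_filter]
      push_cast
      apply sum_congr rfl
      intro q _
      have := r01' p q
      split_ifs with h0
      · rw [h0]
        simp
      · omega
    rw [sum_sub_distrib, sumr'] at h1
    have h2 : ((P p).card : ℤ) ≤ g R (P p) (Z' p) := by exact_mod_cast hallP p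
    simp only [sum_const, nsmul_eq_mul, mul_one] at h1
    linarith
  -- rows
  set K : α → Finset α := fun q => univ.filter (fun x => q ∈ B x) with hK
  set K1 : α → Finset α := fun q => univ.filter (fun p => q ∈ B' p) with hK1
  set K2 : α → Finset α := fun q => univ.filter (fun p => q ∈ Z p \ Z' p) with hK2
  have rows : ∀ q, (K q).card ≤ (K1 q).card + (K2 q).card := by
    intro q
    have mK : ∀ x, x ∈ K q → q ∈ Q x ∧ r x q = 0 := by
      intro x hx
      simp only [hK, hB, mem_filter, mem_univ, true_and] at hx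
      exact hx
    have h1 : (K q).card ≤ (cl R (K q) \ cl R (X q)).card := by
      apply h.step3
      · intro x hx
        exact ((mQ x q).1 (mK x hx).1).1
      · intro x hx
        exact ((mQ x q).1 (mK x hx).1).2
    have h2 : cl R (K q) \ cl R (X q) ⊆ K1 q ∪ K2 q := by
      intro p hp
      rw [mem_sdiff] at hp
      have hp1 := hp.1
      rw [mem_cl] at hp1
      obtain ⟨x, hx, hxp⟩ := hp1
      obtain ⟨hqx, hr0⟩ := mK x hx
      have hz : q ∈ Z p := by
        rw [mZ]
        refine ⟨?_, hp.2⟩
        intro hc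
        apply ((mQ x q).1 hqx).1
        exact cl_mono (h.swap.subU hxp) hc
      rw [mem_union]
      by_cases hz' : q ∈ Z' p
      · left
        simp only [hK1, hB', mem_filter, mem_univ, true_and]
        refine ⟨hz', ?_⟩
        have := cmp x p q hxp hqx hz'
        have := r01' p q
        omega
      · right
        simp only [hK2, mem_filter, mem_univ, true_and, mem_sdiff]
        exact ⟨hz, hz'⟩
    exact (h1.trans (card_le_card h2)).trans (card_union_le _ _)
  have d1 : ∑ x, (B x).card = ∑ q, (K q).card := by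
    apply dcount
    intro q x
    simp [hK]
  have d2 : ∑ x, (B' x).card = ∑ q, (K1 q).card := by
    apply dcount
    intro q x
    simp [hK1]
  have d3 : ∑ x, (Z x \ Z' x).card = ∑ q, (K2 q).card := by
    apply dcount
    intro q x
    simp [hK2]
  have d4 : ∀ p, ((Z p \ Z' p).card : ℤ) = (Z p).card - (Z' p).card := by
    intro p
    have hsub : Z' p ⊆ Z p := filter_subset _ _
    have := card_sdiff_add_card_eq_card hsub
    zify at this
    linarith
  have tot : ∑ x, (((Q x).card : ℤ) - (G x).card) ≤ ∑ p, (((Z p).card : ℤ) - (P p).card) := by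
    calc ∑ x, (((Q x).card : ℤ) - (G x).card) ≤ ∑ x, ((B x).card : ℤ) :=
          sum_le_sum (fun x _ => cardB x)
      _ = ∑ q, ((K q).card : ℤ) := by exact_mod_cast d1
      _ ≤ ∑ q, (((K1 q).card : ℤ) + (K2 q).card) := by
          apply sum_le_sum
          intro q _
          exact_mod_cast rows q
      _ = ∑ p, ((B' p).card : ℤ) + ∑ p, ((Z p \ Z' p).card : ℤ) := by
          rw [sum_add_distrib]
          congr 1
          · exact_mod_cast d2.symm
          · exact_mod_cast d3.symm
      _ ≤ ∑ p, (((Z' p).card : ℤ) - (P p).card) + ∑ p, (((Z p).card : ℤ) - (Z' p).card) := by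
          apply add_le_add
          · exact sum_le_sum (fun p _ => cardB' p)
          · exact (sum_congr rfl (fun p _ => d4 p)).le
      _ = ∑ p, (((Z p).card : ℤ) - (P p).card) := by
          rw [← sum_add_distrib]
          apply sum_congr rfl
          intro p _
          ring
  -- counting
  have cl_self : ∀ (F : α → Finset α), (∀ a, a ∈ F a) → ∀ a, a ∈ cl R (F a) :=
    fun F hF a => subcl (F a) (hF a)
  have uU : ∀ a, a ∈ U a := fun a => h.hU a a (h.refl a)
  have uW : ∀ a, a ∈ W a := fun a => h.hW a a (h.refl a)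
  have c1 := gap_count U W h.orth uU uW
  have c2 := gap_count X (fun x => cl R (W x)) h.orth1 h.self_mem (cl_self W uW)
  have c3 := gap_count (fun a => cl R (U a)) Y h.orth2 (cl_self U uU) h.swap.self_mem
  have c4 := gap_count (fun a => cl R (X a)) (fun x => cl R (Y x)) h.orth3
    (cl_self X h.self_mem) (cl_self Y h.swap.self_mem)
  rw [sum_sub_distrib, sum_sub_distrib] at tot
  simp only [c, sum_sub_distrib]
  zify at c1 c2 c3 c4
  linarith

end Vale.Agent.P038.H30
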