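import Vale.Agent.P038.Defs

/-!
# Closed neighbourhoods of a relation, submodularity, and a rank function
-/

set_option linter.unusedSectionVars false

namespace Vale.Agent.P038.H30

open Finset

variable {α : Type*} [Fintype α] [LinearOrder α]

open Classical in
/-- Closed out-neighbourhood of a set. -/
noncomputable def cl (R : α → α → Prop) (S : Finset α) : Finset α :=
  univ.filter fun v => ∃ s ∈ S, R s v

open Classical in
/-- Closed in-neighbourhood of a set. -/
noncomputable def ib (R : α → α → Prop) (S : Finset α) : Finset α :=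
  univ.filter fun l => ∃ s ∈ S, R l s

theorem mem_cl {R : α → α → Prop} {S : Finset α} {v : α} : v ∈ cl R S ↔ ∃ s ∈ S, R s v := by
  classical
  simp [cl]

theorem mem_ib {R : α → α → Prop} {S : Finset α} {l : α} : l ∈ ib R S ↔ ∃ s ∈ S, R l s := by
  classical
  simp [ib]

/-- The boundary function `|N[S]| - |S|`. -/
noncomputable def c (R : α → α → Prop) (S : Finset α) : ℤ := (cl R S).card - S.card

theorem card_add_le {A B C D : Finset α} (h1 : ∀ t, t ∈ A → t ∈ B → t ∈ C ∧ t ∈ D)
    (h2 : ∀ t, t ∈ A → t ∈ C ∨ t ∈ D) (h3 : ∀ t, t ∈ B → t ∈ C ∨ t ∈ D) :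
    A.card + B.card ≤ C.card + D.card := by
  rw [← card_union_add_card_inter A B, ← card_union_add_card_inter C D]
  apply Nat.add_le_add
  · apply card_le_card
    intro t ht
    rw [mem_union] at ht ⊢
    rcases ht with ht | ht
    · exact h2 t ht
    · exact h3 t ht
  · apply card_le_card
    intro t ht
    rw [mem_inter] at ht ⊢
    exact h1 t ht.1 ht.2

theorem cl_union {R : α → α → Prop} (S T : Finset α) : cl R (S ∪ T) = cl R S ∪ cl R T := by
  ext v
  simp only [mem_cl, mem_union]
  constructor
  · rintro ⟨s, hs | hs, h⟩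
    · exact Or.inl ⟨s, hs, h⟩
    · exact Or.inr ⟨s, hs, h⟩
  · rintro (⟨s, hs, h⟩ | ⟨s, hs, h⟩)
    · exact ⟨s, Or.inl hs, h⟩
    · exact ⟨s, Or.inr hs, h⟩

theorem cl_mono {R : α → α → Prop} {S T : Finset α} (h : S ⊆ T) : cl R S ⊆ cl R T := by
  intro v hv
  rw [mem_cl] at hv ⊢
  obtain ⟨s, hs, h'⟩ := hv
  exact ⟨s, h hs, h'⟩

theorem c_submod (R : α → α → Prop) (S T : Finset α) :
    c R (S ∪ T) + c R (S ∩ T) ≤ c R S + c R T := by
  have h1 : (cl R (S ∪ T)).card + (cl R (S ∩ T)).card ≤ (cl R S).card + (cl R T).card := by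
    rw [cl_union, ← card_union_add_card_inter (cl R S) (cl R T)]
    apply Nat.add_le_add_left
    apply card_le_card
    intro v hv
    rw [mem_inter]
    exact ⟨cl_mono inter_subset_left hv, cl_mono inter_subset_right hv⟩
  have h2 := card_union_add_card_inter S T
  unfold c
  zify at h1 h2
  linarith

/-- Uncrossing with an intersection. -/
theorem uncross (R : α → α → Prop) (I : Finset α) (U : α → Finset α) (X K : Finset α)
    (hX : ∀ x, x ∈ X ↔ ∀ a ∈ I, x ∈ U a)
    (hU : ∀ a ∈ I, ∀ K' ⊆ K, c R (U a) ≤ c R (U a ∪ K')) :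
    c R X ≤ c R (X ∪ K) := by
  classical
  have key : ∀ J : Finset α, J ⊆ I →
      c R (X ∪ K.filter (fun x => ∀ a ∈ J, x ∈ U a)) ≤ c R (X ∪ K) := by
    intro J
    induction J using Finset.induction_on with
    | empty =>
      intro _
      have : K.filter (fun x => ∀ a ∈ (∅ : Finset α), x ∈ U a) = K := by
        apply filter_true_of_mem
        intro x _ a ha
        simp at ha
      rw [this]
    | insert b J hb ih =>
      intro hJ
      have hbI : b ∈ I := hJ (mem_insert_self b J)
      have ih' := ih (fun a ha => hJ (mem_insert_of_mem ha))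
      set KJ := K.filter (fun x => ∀ a ∈ J, x ∈ U a) with hKJ
      have e1 : (X ∪ KJ) ∪ U b = U b ∪ KJ := by
        ext x
        simp only [mem_union]
        constructor
        · rintro ((h | h) | h)
          · exact Or.inl ((hX x).1 h b hbI)
          · exact Or.inr h
          · exact Or.inl h
        · rintro (h | h)
          · exact Or.inr h
          · exact Or.inl (Or.inr h)
      have e2 : (X ∪ KJ) ∩ U b = X ∪ K.filter (fun x => ∀ a ∈ insert b J, x ∈ U a) := by
        ext x
        simp only [mem_inter, mem_union, hKJ, mem_filter, mem_insert]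
        constructor
        · rintro ⟨h | ⟨hk, h⟩, hb'⟩
          · exact Or.inl h
          · refine Or.inr ⟨hk, ?_⟩
            rintro a (rfl | ha)
            · exact hb'
            · exact h a ha
        · rintro (h | ⟨hk, h⟩)
          · exact ⟨Or.inl h, (hX x).1 h b hbI⟩
          · exact ⟨Or.inr ⟨hk, fun a ha => h a (Or.inr ha)⟩, h b (Or.inl rfl)⟩
      have hs := c_submod R (X ∪ KJ) (U b)
      rw [e1, e2] at hs
      have h3 := hU b hbI KJ (filter_subset _ _)
      linarith
  have h := key I (Subset.refl I)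
  have e : X ∪ K.filter (fun x => ∀ a ∈ I, x ∈ U a) = X := by
    ext x
    simp only [mem_union, mem_filter]
    constructor
    · rintro (h | ⟨_, h⟩)
      · exact h
      · exact (hX x).2 h
    · exact Or.inl
  rw [e] at h
  exact h

/-- The counting form of `uncross`. -/
theorem card_le_of_c {R : α → α → Prop} {X K : Finset α} (h : c R X ≤ c R (X ∪ K))
    (hd : ∀ x ∈ K, x ∉ X) : K.card ≤ (cl R K \ cl R X).card := by
  have h1 : (X ∪ K).card = X.card + K.card := by
    apply card_union_of_disjoint
    rw [disjoint_left]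
    intro x hx hk
    exact hd x hk hx
  have h2 : (cl R (X ∪ K)).card = (cl R X).card + (cl R K \ cl R X).card := by
    rw [cl_union, ← union_sdiff_self_eq_union]
    apply card_union_of_disjoint
    exact disjoint_sdiff
  unfold c at h
  rw [h1, h2] at h
  push_cast at h
  have : (K.card : ℤ) ≤ ((cl R K \ cl R X).card : ℤ) := by linarith
  exact_mod_cast this

/-! ## The rank function -/

/-- `g L T = min over S ⊆ T of |T \ S| + |N⁻[S] ∩ L|`. -/
noncomputable def g (R : α → α → Prop) (L T : Finset α) : ℕ :=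
  T.powerset.inf' ⟨∅, by simp⟩ (fun S => (T \ S).card + (ib R S ∩ L).card)

theorem g_le {R : α → α → Prop} {L T S : Finset α} (h : S ⊆ T) :
    g R L T ≤ (T \ S).card + (ib R S ∩ L).card :=
  Finset.inf'_le (fun S => (T \ S).card + (ib R S ∩ L).card) (mem_powerset.2 h)

theorem exists_g (R : α → α → Prop) (L T : Finset α) :
    ∃ S, S ⊆ T ∧ g R L T = (T \ S).card + (ib R S ∩ L).card := by
  obtain ⟨S, hS, h⟩ := Finset.exists_mem_eq_inf' (s := T.powerset) ⟨∅, by simp⟩
    (fun S => (T \ S).card + (ib R S ∩ L).card)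
  exact ⟨S, mem_powerset.1 hS, h⟩

theorem g_empty (R : α → α → Prop) (L : Finset α) : g R L ∅ = 0 := by
  have h := g_le (R := R) (L := L) (T := ∅) (S := ∅) (Subset.refl _)
  have e : (ib R ∅ ∩ L).card = 0 := by
    rw [card_eq_zero]
    ext x
    simp [mem_ib]
  simp only [sdiff_self, e] at h
  simpa using h

theorem g_le_left (R : α → α → Prop) (L T : Finset α) : g R L T ≤ L.card := by
  have h := g_le (R := R) (L := L) (T := T) (S := T) (Subset.refl _)
  have h2 : (ib R T ∩ L).card ≤ L.card := card_le_card inter_subset_right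
  rw [sdiff_self] at h
  simp only [bot_eq_empty, card_empty, zero_add] at h
  omega

theorem g_insert_le {R : α → α → Prop} {L T : Finset α} {q : α} (hq : q ∉ T) :
    g R L (insert q T) ≤ g R L T + 1 := by
  obtain ⟨S, hS, h⟩ := exists_g R L T
  have h1 := g_le (R := R) (L := L) (T := insert q T) (S := S)
    (fun x hx => mem_insert_of_mem (hS hx))
  have h2 : ((insert q T) \ S).card ≤ (T \ S).card + 1 := by
    have : (insert q T) \ S ⊆ insert q (T \ S) := by
      intro x hx
      rw [mem_sdiff, mem_insert] at hx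
      rw [mem_insert, mem_sdiff]
      rcases hx with ⟨rfl | h, h'⟩
      · exact Or.inl rfl
      · exact Or.inr ⟨h, h'⟩
    exact (card_le_card this).trans (card_insert_le _ _)
  omega

theorem g_mono_insert {R : α → α → Prop} {L T : Finset α} {q : α} :
    g R L T ≤ g R L (insert q T) := by
  obtain ⟨S, hS, h⟩ := exists_g R L (insert q T)
  rw [h]
  have h1 := g_le (R := R) (L := L) (T := T) (S := S ∩ T) inter_subset_right
  refine h1.trans ?_
  apply Nat.add_le_add
  · apply card_le_card
    intro x hx
    rw [mem_sdiff, mem_inter] at hx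
    rw [mem_sdiff]
    exact ⟨mem_insert_of_mem hx.1, fun hs => hx.2 ⟨hs, hx.1⟩⟩
  · apply card_le_card
    intro x hx
    rw [mem_inter, mem_ib] at hx ⊢
    obtain ⟨⟨s, hs, hr⟩, hl⟩ := hx
    exact ⟨⟨s, (mem_inter.1 hs).1, hr⟩, hl⟩

/-- Hall's condition gives full rank. -/
theorem hall {R : α → α → Prop} {L T : Finset α}
    (h : ∀ K ⊆ L, K.card ≤ (T ∩ cl R K).card) : L.card ≤ g R L T := by
  obtain ⟨S, hS, e⟩ := exists_g R L T
  rw [e]
  have h1 := h (L \ ib R S) sdiff_subset
  have h2 : T ∩ cl R (L \ ib R S) ⊆ T \ S := by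
    intro x hx
    rw [mem_inter, mem_cl] at hx
    obtain ⟨hx, s, hs, hr⟩ := hx
    rw [mem_sdiff] at hs ⊢
    refine ⟨hx, fun hxS => hs.2 ?_⟩
    rw [mem_ib]
    exact ⟨x, hxS, hr⟩
  have h3 := card_le_card h2
  have h4 : L.card = (L \ ib R S).card + (ib R S ∩ L).card := by
    rw [inter_comm]
    exact (card_sdiff_add_card_inter L (ib R S)).symm
  omega

/-- The comparison of the marginal ranks. -/
theorem compare {R : α → α → Prop} {L L' Q Q' : Finset α} {q : α}
    (h1 : ∀ s ∈ Q, ∀ l ∈ L', R l s → l ∈ L) (h2 : ∀ s ∈ Q, ∀ l ∈ L', R l s → s ∈ Q')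
    (hq : q ∈ Q) (hq' : q ∈ Q') :
    g R L (Q.filter (· < q)) + g R L' (insert q (Q'.filter (· < q))) ≤
      g R L (insert q (Q.filter (· < q))) + g R L' (Q'.filter (· < q)) := by
  obtain ⟨S1, hS1, e1⟩ := exists_g R L (insert q (Q.filter (· < q)))
  obtain ⟨S2, hS2, e2⟩ := exists_g R L' (Q'.filter (· < q))
  have hqT : q ∉ Q.filter (· < q) := by simp
  have hqT' : q ∉ Q'.filter (· < q) := by simp
  by_cases hqS : q ∈ S1
  · set A := (S1 ∩ S2) ∪ (S1 \ Q') with hA
    set B := (S1 ∩ Q') ∪ S2 with hB
    have memA : ∀ t, t ∈ A ↔ (t ∈ S1 ∧ t ∈ S2) ∨ (t ∈ S1 ∧ t ∉ Q') := by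
      intro t
      simp [hA]
    have memB : ∀ t, t ∈ B ↔ (t ∈ S1 ∧ t ∈ Q') ∨ t ∈ S2 := by
      intro t
      simp [hB]
    have hS1Q : ∀ t ∈ S1, t ∈ Q := by
      intro t ht
      have := hS1 ht
      rw [mem_insert, mem_filter] at this
      rcases this with rfl | h
      · exact hq
      · exact h.1
    have hAT : A ⊆ Q.filter (· < q) := by
      intro t ht
      rw [memA] at ht
      rcases ht with ⟨h, h'⟩ | ⟨h, h'⟩
      · have := hS1 h
        rw [mem_insert] at this
        rcases this with rfl | h''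
        · exact absurd (hS2 h') hqT'
        · exact h''
      · have := hS1 h
        rw [mem_insert] at this
        rcases this with rfl | h''
        · exact absurd hq' h'
        · exact h''
    have hBT : B ⊆ insert q (Q'.filter (· < q)) := by
      intro t ht
      rw [memB] at ht
      rcases ht with ⟨h, h'⟩ | h
      · have := hS1 h
        rw [mem_insert, mem_filter] at this
        rcases this with rfl | h''
        · exact mem_insert_self _ _
        · exact mem_insert_of_mem (mem_filter.2 ⟨h', h''.2⟩)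
      · exact mem_insert_of_mem (hS2 h)
    have gA := g_le (R := R) (L := L) hAT
    have gB := g_le (R := R) (L := L') hBT
    have r1 : ((Q.filter (· < q)) \ A).card + ((insert q (Q'.filter (· < q))) \ B).card ≤
        ((insert q (Q.filter (· < q))) \ S1).card + ((Q'.filter (· < q)) \ S2).card := by
      apply card_add_le
      · intro t ht ht'
        rw [mem_sdiff, memA, mem_filter] at ht
        rw [mem_sdiff, memB, mem_insert, mem_filter] at ht'
        have htq : t ≠ q := ne_of_lt ht.1.2
        have htQ' : t ∈ Q' := by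
          rcases ht'.1 with h | h
          · exact absurd h htq
          · exact h.1
        have hn1 : t ∉ S1 := fun h => ht'.2 (Or.inl ⟨h, htQ'⟩)
        have hn2 : t ∉ S2 := fun h => ht'.2 (Or.inr h)
        rw [mem_sdiff, mem_sdiff, mem_insert, mem_filter, mem_filter]
        exact ⟨⟨Or.inr ht.1, hn1⟩, ⟨⟨htQ', ht.1.2⟩, hn2⟩⟩
      · intro t ht
        rw [mem_sdiff, memA, mem_filter] at ht
        rw [mem_sdiff, mem_sdiff, mem_insert, mem_filter, mem_filter]
        by_cases hs : t ∈ S1
        · right
          have hn2 : t ∉ S2 := fun h => ht.2 (Or.inl ⟨hs, h⟩)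
          have hQ' : t ∈ Q' := by
            by_contra h
            exact ht.2 (Or.inr ⟨hs, h⟩)
          exact ⟨⟨hQ', ht.1.2⟩, hn2⟩
        · left
          exact ⟨Or.inr ht.1, hs⟩
      · intro t ht
        rw [mem_sdiff, memB, mem_insert] at ht
        right
        rw [mem_sdiff]
        have hn2 : t ∉ S2 := fun h => ht.2 (Or.inr h)
        rcases ht.1 with rfl | h
        · exact absurd (Or.inl ⟨hqS, hq'⟩) ht.2
        · exact ⟨h, hn2⟩
    have r2 : (ib R A ∩ L).card + (ib R B ∩ L').card ≤
        (ib R S1 ∩ L).card + (ib R S2 ∩ L').card := by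
      apply card_add_le
      · intro l hl hl'
        rw [mem_inter, mem_ib] at hl hl'
        rw [mem_inter, mem_inter, mem_ib, mem_ib]
        obtain ⟨⟨s, hs, hr⟩, hL⟩ := hl
        rw [memA] at hs
        rcases hs with ⟨hs1, hs2⟩ | ⟨hs1, hs2⟩
        · exact ⟨⟨⟨s, hs1, hr⟩, hL⟩, ⟨⟨s, hs2, hr⟩, hl'.2⟩⟩
        · exact absurd (h2 s (hS1Q s hs1) l hl'.2 hr) hs2
      · intro l hl
        left
        rw [mem_inter, mem_ib] at hl ⊢
        obtain ⟨⟨s, hs, hr⟩, hL⟩ := hl
        rw [memA] at hs
        rcases hs with ⟨hs1, hs2⟩ | ⟨hs1, hs2⟩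
        · exact ⟨⟨s, hs1, hr⟩, hL⟩
        · exact ⟨⟨s, hs1, hr⟩, hL⟩
      · intro l hl
        rw [mem_inter, mem_ib] at hl
        obtain ⟨⟨s, hs, hr⟩, hL⟩ := hl
        rw [memB] at hs
        rcases hs with ⟨hs1, hs2⟩ | hs
        · left
          rw [mem_inter, mem_ib]
          exact ⟨⟨s, hs1, hr⟩, h1 s (hS1Q s hs1) l hL hr⟩
        · right
          rw [mem_inter, mem_ib]
          exact ⟨⟨s, hs, hr⟩, hL⟩
    omega
  · have hS1' : S1 ⊆ Q.filter (· < q) := by
      intro t ht
      have := hS1 ht
      rw [mem_insert] at this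
      rcases this with rfl | h
      · exact absurd ht hqS
      · exact h
    have gA := g_le (R := R) (L := L) hS1'
    have gB := g_insert_le (R := R) (L := L') hqT'
    have e : ((insert q (Q.filter (· < q))) \ S1).card = ((Q.filter (· < q)) \ S1).card + 1 := by
      have : (insert q (Q.filter (· < q))) \ S1 = insert q ((Q.filter (· < q)) \ S1) := by
        rw [insert_sdiff_of_notMem _ hqS]
      rw [this, card_insert_of_notMem]
      intro h
      exact hqT (mem_sdiff.1 h).1
    omega

/-- Telescoping sum of marginals. -/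
theorem telescope (f : Finset α → ℤ) (Q : Finset α) :
    ∑ q ∈ Q, (f (insert q (Q.filter (· < q))) - f (Q.filter (· < q))) = f Q - f ∅ := by
  induction Q using Finset.induction_on_max with
  | empty => simp
  | insert a s hs ih =>
    have ha : a ∉ s := fun h => lt_irrefl a (hs a h)
    rw [sum_insert ha]
    have e1 : (insert a s).filter (· < a) = s := by
      ext x
      rw [mem_filter, mem_insert]
      constructor
      · rintro ⟨rfl | h, h'⟩
        · exact absurd h' (lt_irrefl _)
        · exact h
      · intro h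
        exact ⟨Or.inr h, hs x h⟩
    have e2 : ∑ q ∈ s, (f (insert q ((insert a s).filter (· < q))) -
        f ((insert a s).filter (· < q))) =
        ∑ q ∈ s, (f (insert q (s.filter (· < q))) - f (s.filter (· < q))) := by
      apply sum_congr rfl
      intro q hq
      have : (insert a s).filter (· < q) = s.filter (· < q) := by
        ext x
        rw [mem_filter, mem_filter, mem_insert]
        constructor
        · rintro ⟨rfl | h, h'⟩
          · exact absurd (h'.trans (hs q hq)) (lt_irrefl _)
          · exact ⟨h, h'⟩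
        · rintro ⟨h, h'⟩
          exact ⟨Or.inr h, h'⟩
      rw [this]
    rw [e1, e2, ih]
    ring

end Vale.Agent.P038.H30
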