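import Vale.Agent.P038.H30.Contra

/-!
# Seymour's second neighbourhood conjecture
-/

set_option linter.unusedSectionVars false

namespace Vale.Agent.P038.H30

open Finset

variable {α : Type*} [Fintype α] [LinearOrder α]

/-- A counterexample. -/
def CE (D : OGraph α) : Prop := ∀ v, (N2 D v).card < (N1 D v).card

/-- The number of arcs. -/
noncomputable def arcs (D : OGraph α) : ℕ := ∑ v, (N1 D v).card

/-- The closed relation. -/
def rel (D : OGraph α) (a x : α) : Prop := a = x ∨ D.arc a x

/-- Delete the arcs from `X` to `E`. -/
def del (D : OGraph α) (X E : Finset α) : OGraph α where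
  arc y z := D.arc y z ∧ ¬ (y ∈ X ∧ z ∈ E)
  loopless v h := D.loopless v h.1
  asymm u v h h' := D.asymm u v h.1 h'.1

theorem step0 (D : OGraph α) (hD : CE D) (hmin : ∀ D' : OGraph α, CE D' → arcs D ≤ arcs D')
    (X : Finset α) (hX : cl (rel D) X ≠ X) :
    c (rel D) (cl (rel D) X) < c (rel D) X := by
  classical
  set R := rel D with hR
  have hrefl : ∀ a, R a a := fun a => Or.inl rfl
  have hsub : ∀ S : Finset α, S ⊆ cl R S := by
    intro S x hx
    rw [mem_cl]
    exact ⟨x, hx, hrefl x⟩
  set L := cl R X \ X with hL
  have hLne : L.Nonempty := by
    rw [Finset.nonempty_iff_ne_empty]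
    intro h
    apply hX
    apply Subset.antisymm _ (hsub X)
    rw [← sdiff_eq_empty_iff_subset]
    exact h
  set d : Finset α → ℤ := fun T => ((cl R T \ X).card : ℤ) - 2 * T.card with hd
  -- every minimiser is `L`
  have huniq : ∀ T, T ⊆ L → (∀ T', T' ⊆ L → d T ≤ d T') → T = L := by
    intro T hT hTmin
    by_contra hne
    set E := L \ T with hE
    have hEne : E.Nonempty := by
      rw [Finset.nonempty_iff_ne_empty]
      intro h
      apply hne
      apply Subset.antisymm hT
      rw [← sdiff_eq_empty_iff_subset]
      exact h
    have hXE : ∀ y ∈ X, y ∉ E := by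
      intro y hy hE'
      rw [hE, mem_sdiff, hL, mem_sdiff] at hE'
      exact hE'.1.2 hy
    set D' := del D X E with hD'
    have harc : ∀ y z, D'.arc y z ↔ D.arc y z ∧ ¬ (y ∈ X ∧ z ∈ E) := fun y z => Iff.rfl
    -- rows
    have hCE : CE D' := by
      intro y
      by_cases hy : y ∈ X
      · set Dy := (N1 D y).filter (fun z => z ∈ E) with hDy
        have mDy : ∀ z, z ∈ Dy ↔ D.arc y z ∧ z ∈ E := by
          intro z
          simp [hDy, mem_N1]
        set Ey := cl R Dy \ (cl R T ∪ X) with hEy
        have mEy : ∀ z, z ∈ Ey ↔ z ∈ cl R Dy ∧ z ∉ cl R T ∧ z ∉ X := by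
          intro z
          simp [hEy]
        have hDyL : Dy ⊆ L := by
          intro z hz
          have := ((mDy z).1 hz).2
          rw [hE, mem_sdiff] at this
          exact this.1
        have hDyT : ∀ z ∈ Dy, z ∉ T := by
          intro z hz
          have := ((mDy z).1 hz).2
          rw [hE, mem_sdiff] at this
          exact this.2
        -- d (T ∪ Dy) ≥ d T
        have h1 : 2 * Dy.card ≤ Ey.card := by
          have h2 := hTmin (T ∪ Dy) (union_subset hT hDyL)
          have e1 : (T ∪ Dy).card = T.card + Dy.card := by
            apply card_union_of_disjoint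
            rw [disjoint_left]
            intro z hz hz'
            exact hDyT z hz' hz
          have e2 : (cl R (T ∪ Dy) \ X).card = (cl R T \ X).card + Ey.card := by
            rw [← card_union_of_disjoint]
            · congr 1
              ext z
              rw [mem_union, mEy, mem_sdiff, mem_sdiff, cl_union, mem_union]
              tauto
            · rw [disjoint_left]
              intro z hz hz'
              rw [mEy] at hz'
              rw [mem_sdiff] at hz
              exact hz'.2.1 hz.1
          simp only [hd] at h2
          rw [e1, e2] at h2
          push_cast at h2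
          omega
        have e1 : (N1 D' y).card + Dy.card = (N1 D y).card := by
          rw [← card_union_of_disjoint]
          · congr 1
            ext z
            rw [mem_union, mem_N1, mem_N1, mDy, harc]
            by_cases hz : z ∈ E
            · simp [hz, hy]
            · simp [hz]
          · rw [disjoint_left]
            intro z hz hz'
            rw [mem_N1, harc] at hz
            rw [mDy] at hz'
            exact hz.2 ⟨hy, hz'.2⟩
        have e2 : (N2 D' y).card + Ey.card ≤ (N2 D y).card + Dy.card := by
          rw [← card_union_of_disjoint, ← card_union_of_disjoint]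
          · apply card_le_card
            intro z hz
            rw [mem_union] at hz ⊢
            rcases hz with hz | hz
            · rw [mem_N2] at hz
              obtain ⟨hzy, hna, u, hyu, huz⟩ := hz
              rw [harc] at hna hyu huz
              by_cases ha : D.arc y z
              · right
                rw [mDy]
                refine ⟨ha, ?_⟩
                by_contra hzE
                exact hna ⟨ha, fun h => hzE h.2⟩
              · left
                rw [mem_N2]
                exact ⟨hzy, ha, u, hyu.1, huz.1⟩
            · rw [mEy, mem_cl] at hz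
              obtain ⟨⟨s, hs, hsz⟩, hzT, hzX⟩ := hz
              have hs' := (mDy s).1 hs
              rcases hsz with rfl | hsz
              · exact Or.inr hs
              · have hzy : z ≠ y := by
                  rintro rfl
                  exact hzX hy
                by_cases ha : D.arc y z
                · right
                  rw [mDy]
                  refine ⟨ha, ?_⟩
                  rw [hE, mem_sdiff, hL, mem_sdiff, mem_cl]
                  refine ⟨⟨⟨y, hy, Or.inr ha⟩, hzX⟩, ?_⟩
                  intro hzT'
                  exact hzT (hsub T hzT')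
                · left
                  rw [mem_N2]
                  exact ⟨hzy, ha, s, hs'.1, hsz⟩
          · rw [disjoint_left]
            intro z hz hz'
            rw [mem_N2] at hz
            rw [mDy] at hz'
            exact hz.2.1 hz'.1
          · rw [disjoint_left]
            intro z hz hz'
            rw [mem_N2] at hz
            rw [mEy] at hz'
            obtain ⟨hzy, hna, u, hyu, huz⟩ := hz
            obtain ⟨_, hzT, hzX⟩ := hz'
            rw [harc] at hyu huz
            -- u is in X or in T
            by_cases huX : u ∈ X
            · -- z is in L \ E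
              apply hzT
              apply hsub T
              have hzL : z ∈ L := by
                rw [hL, mem_sdiff, mem_cl]
                exact ⟨⟨u, huX, Or.inr huz.1⟩, hzX⟩
              by_contra hzT'
              apply huz.2
              refine ⟨huX, ?_⟩
              rw [hE, mem_sdiff]
              exact ⟨hzL, hzT'⟩
            · have huL : u ∈ L := by
                rw [hL, mem_sdiff, mem_cl]
                exact ⟨⟨y, hy, Or.inr hyu.1⟩, huX⟩
              have huT : u ∈ T := by
                by_contra huT
                apply hyu.2
                refine ⟨hy, ?_⟩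
                rw [hE, mem_sdiff]
                exact ⟨huL, huT⟩
              apply hzT
              rw [mem_cl]
              exact ⟨u, huT, Or.inr huz.1⟩
        have := hD y
        omega
      · have e1 : (N1 D' y).card = (N1 D y).card := by
          congr 1
          ext z
          rw [mem_N1, mem_N1, harc]
          simp [hy]
        have e2 : (N2 D' y).card ≤ (N2 D y).card := by
          apply card_le_card
          intro z hz
          rw [mem_N2] at hz ⊢
          obtain ⟨hzy, hna, u, hyu, huz⟩ := hz
          rw [harc] at hna hyu huz
          refine ⟨hzy, ?_, u, hyu.1, huz.1⟩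
          intro ha
          exact hna ⟨ha, fun h => hy h.1⟩
        have := hD y
        omega
    -- fewer arcs
    have hlt : arcs D' < arcs D := by
      obtain ⟨z, hz⟩ := hEne
      have hz' := hz
      rw [hE, mem_sdiff, hL, mem_sdiff, mem_cl] at hz'
      obtain ⟨⟨⟨y, hy, hyz⟩, hzX⟩, _⟩ := hz'
      have hyz' : D.arc y z := by
        rcases hyz with rfl | h
        · exact absurd hy hzX
        · exact h
      unfold arcs
      apply sum_lt_sum
      · intro v _
        apply card_le_card
        intro x hx
        rw [mem_N1] at hx ⊢
        exact ((harc v x).1 hx).1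
      · refine ⟨y, mem_univ y, ?_⟩
        apply card_lt_card
        rw [Finset.ssubset_iff_of_subset]
        · refine ⟨z, mem_N1.2 hyz', ?_⟩
          rw [mem_N1, harc]
          intro h
          exact h.2 ⟨hy, hz⟩
        · intro x hx
          rw [mem_N1] at hx ⊢
          exact ((harc y x).1 hx).1
    exact absurd (hmin D' hCE) (not_le.2 hlt)
  -- minimiser exists
  obtain ⟨T, hT, hTmin⟩ := Finset.exists_min_image L.powerset d ⟨∅, by simp⟩
  have hTL : T = L := huniq T (mem_powerset.1 hT) (fun T' hT' => hTmin T' (mem_powerset.2 hT'))
  have hlt : d L < d ∅ := by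
    by_contra hcon
    rw [not_lt] at hcon
    have : (∅ : Finset α) = L := by
      apply huniq ∅ (empty_subset _)
      intro T' hT'
      have := hTmin T' (mem_powerset.2 hT')
      rw [hTL] at this
      exact hcon.trans this
    rw [← this] at hLne
    exact Finset.not_nonempty_empty hLne
  have e0 : d ∅ = 0 := by
    have : cl R ∅ = ∅ := by
      ext x
      simp [mem_cl]
    simp [hd, this]
  rw [e0] at hlt
  simp only [hd] at hlt
  -- c X = |L|
  have ec : (cl R X).card = X.card + L.card := by
    rw [hL, ← card_union_of_disjoint disjoint_sdiff, union_sdiff_self_eq_union]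
    congr 1
    exact (union_eq_right.2 (hsub X)).symm
  have ec2 : (cl R (cl R X)).card = X.card + (cl R L \ X).card := by
    rw [← card_union_of_disjoint disjoint_sdiff, union_sdiff_self_eq_union]
    congr 1
    have : cl R X = X ∪ L := by
      rw [hL, union_sdiff_self_eq_union]
      exact (union_eq_right.2 (hsub X)).symm
    conv_lhs => rw [this]
    rw [cl_union, this]
    ext z
    simp only [mem_union]
    constructor
    · rintro ((h | h) | h)
      · exact Or.inl h
      · exact Or.inr (hsub L h)
      · exact Or.inr h
    · rintro (h | h)
      · exact Or.inl (Or.inl h)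
      · exact Or.inr h
  unfold c
  rw [ec2, ec]
  push_cast
  linarith

theorem seymour_aux [Nonempty α] (D : OGraph α) : ∃ v, (N1 D v).card ≤ (N2 D v).card := by
  classical
  by_contra hcon
  push Not at hcon
  have hex : ∃ k, ∃ D : OGraph α, CE D ∧ arcs D = k := ⟨_, D, hcon, rfl⟩
  obtain ⟨D₁, hD₁, hk⟩ := Nat.find_spec hex
  have hmin : ∀ D' : OGraph α, CE D' → arcs D₁ ≤ arcs D' := by
    intro D' hD'
    rw [hk]
    exact Nat.find_min' hex ⟨D', hD', rfl⟩
  refine contra (rel D₁) (fun a => Or.inl rfl) ?_ ?_ (fun S hS => step0 D₁ hD₁ hmin S hS)
  · rintro a x (rfl | h1) h2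
    · rfl
    · rcases h2 with rfl | h2
      · rfl
      · exact absurd h2 (D₁.asymm _ _ h1)
  · intro a
    have h : 0 < (N1 D₁ a).card := lt_of_le_of_lt (Nat.zero_le _) (hD₁ a)
    obtain ⟨x, hx⟩ := card_pos.1 h
    rw [mem_N1] at hx
    refine ⟨x, ?_, Or.inr hx⟩
    rintro rfl
    exact D₁.loopless _ hx

end Vale.Agent.P038.H30

namespace Vale.Agent.P038.H30

/-- **Seymour's second neighbourhood conjecture.** -/
theorem seymour {V : Type*} [Fintype V] [Nonempty V] (D : OGraph V) :
    ∃ v, (N1 D v).card ≤ (N2 D v).card := by
  let _ : LinearOrder V := LinearOrder.lift' (Fintype.equivFin V) (Fintype.equivFin V).injective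
  exact seymour_aux D

end Vale.Agent.P038.H30
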